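import Vale.Agent.Lib.P358.ChainC

/-!
# P358: from ECI to additivity of the Holevo capacity
(parts A, B, C are in the imported files)
-/
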